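import Vale.Agent.P042.R2.H757.SpecA

set_option autoImplicit false

/-!
P042.MultiplicativeStatistics, row ALLU (helper282).
-/

namespace Vale.Agent.P042.R2.H282.U

open Finset Vale.Agent.P042.H757 Vale.Agent.P042.H757.U

/-- completing a number with small prime factors to a `k`-th power -/
theorem complete {k : ℕ} (hk : 1 ≤ k) (B : ℕ) {m : ℕ} (hm : 1 ≤ m)
    (hmin : ∀ p : ℕ, p.Prime → p ∣ m → p ≤ B) :
    ∃ D w : ℕ, 1 ≤ D ∧ 1 ≤ w ∧ D ≤ ∏ i ∈ Icc 1 B, i ^ k ∧ m * D = w ^ k := by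
  classical
  let f : ℕ → ℕ := fun p => m.factorization p
  let c : ℕ → ℕ := fun p => (f p + (k - 1)) / k
  have hc1 : ∀ p, f p ≤ k * c p := by
    intro p
    have h1 := Nat.div_add_mod (f p + (k - 1)) k
    have h2 : (f p + (k - 1)) % k < k := Nat.mod_lt _ (by omega)
    have h3 : k * ((f p + (k - 1)) / k) + (f p + (k - 1)) % k = f p + (k - 1) := h1
    change f p ≤ k * ((f p + (k - 1)) / k)
    omega
  have hc2 : ∀ p, k * c p - f p ≤ k := by
    intro p
    have h3 : k * ((f p + (k - 1)) / k) ≤ f p + (k - 1) := Nat.mul_div_le _ _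
    change k * ((f p + (k - 1)) / k) - f p ≤ k
    omega
  have hpp : ∀ p ∈ m.primeFactors, p.Prime := fun p hp => Nat.prime_of_mem_primeFactors hp
  refine ⟨∏ p ∈ m.primeFactors, p ^ (k * c p - f p), ∏ p ∈ m.primeFactors, p ^ (c p), ?_, ?_,
    ?_, ?_⟩
  · exact Nat.one_le_iff_ne_zero.2 (Finset.prod_ne_zero_iff.2
      fun p hp => pow_ne_zero _ (hpp p hp).ne_zero)
  · exact Nat.one_le_iff_ne_zero.2 (Finset.prod_ne_zero_iff.2
      fun p hp => pow_ne_zero _ (hpp p hp).ne_zero)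
  · calc ∏ p ∈ m.primeFactors, p ^ (k * c p - f p)
        ≤ ∏ p ∈ m.primeFactors, p ^ k :=
          Finset.prod_le_prod' fun p hp => Nat.pow_le_pow_right (hpp p hp).pos (hc2 p)
      _ ≤ ∏ i ∈ Icc 1 B, i ^ k := by
          refine Finset.prod_le_prod_of_subset_of_one_le' ?_ ?_
          · intro p hp
            exact Finset.mem_Icc.2 ⟨(hpp p hp).one_le,
              hmin p (hpp p hp) (Nat.dvd_of_mem_primeFactors hp)⟩
          · intro i hi _
            exact Nat.one_le_pow _ _ (Finset.mem_Icc.1 hi).1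
  · have h1 : ∏ p ∈ m.primeFactors, p ^ (f p) = m := by
      have := Nat.prod_factorization_pow_eq_self (n := m) (by omega)
      rw [Finsupp.prod] at this
      exact this
    rw [← Finset.prod_pow]
    calc m * ∏ p ∈ m.primeFactors, p ^ (k * c p - f p)
        = (∏ p ∈ m.primeFactors, p ^ (f p)) * ∏ p ∈ m.primeFactors, p ^ (k * c p - f p) := by
          rw [h1]
      _ = ∏ p ∈ m.primeFactors, (p ^ (f p) * p ^ (k * c p - f p)) := by
          rw [Finset.prod_mul_distrib]
      _ = ∏ p ∈ m.primeFactors, (p ^ c p) ^ k := by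
          refine Finset.prod_congr rfl fun p hp => ?_
          rw [← pow_add, ← pow_mul]
          congr 1
          have := hc1 p
          rw [Nat.mul_comm (c p) k]
          omega

theorem rowAllU (h : StPairU) : StAllU := by
  intro a k ha hk c hc x0 t0
  classical
  set x1 : ℕ := max x0 1 with hx1
  set B : ℕ := max t0 x1 with hB
  set D0 : ℕ := ∏ i ∈ Icc 1 B, i ^ k with hD0
  obtain ⟨N0, hN0⟩ := h a k ha hk c hc x0 (1 / 2) (by norm_num) (by norm_num)
  refine ⟨max t0 (max N0 ((a * D0) ^ 2)), fun T col hT hR N A hA hE hF n hn l hl hln => ?_⟩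
  by_contra hlt
  rw [not_le] at hlt
  have hl1 : t0 < l := lt_of_le_of_lt (le_max_left _ _) hlt
  have hl2 : N0 ≤ l := le_trans (le_trans (le_max_left _ _) (le_max_right _ _)) hlt.le
  have hl3 : (a * D0) ^ 2 ≤ l := le_trans (le_trans (le_max_right _ _) (le_max_right _ _)) hlt.le
  have hlT : l ∉ T := fun h' => by
    have := hT l h'
    omega
  have hex : ∃ m : ℕ, m * l ∈ A := by
    obtain ⟨m, hm⟩ := hln
    exact ⟨m, by rw [mul_comm, ← hm]; exact hn⟩
  obtain ⟨m, hmA, hmin⟩ : ∃ m : ℕ, m * l ∈ A ∧ ∀ m' : ℕ, m' * l ∈ A → m ≤ m' :=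
    ⟨Nat.find hex, Nat.find_spec hex, fun m' hm' => Nat.find_min' hex hm'⟩
  have hmN := (Finset.mem_Icc.1 (hA hmA))
  have hm1 : 1 ≤ m := by
    rcases Nat.eq_zero_or_pos m with h0 | h0
    · rw [h0] at hmN; omega
    · exact h0
  have hleast : ∀ p : ℕ, p.Prime → p ∣ m → p ≤ B := by
    intro p hp hpm
    by_contra hpB
    rw [not_le] at hpB
    have hpt : t0 < p := lt_of_le_of_lt (le_max_left _ _) hpB
    have hpx : x1 < p := lt_of_le_of_lt (le_max_right _ _) hpB
    have hpT : p ∉ T := fun h' => by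
      have := hT p h'
      omega
    have hr := hR p hp hpT x1 (le_max_left _ _)
    have hpos : (0 : ℝ) < ({q : ℕ | q ≤ x1 ∧ q.Prime ∧ q ∈ cls T col p}.ncard : ℝ) := by
      refine lt_of_lt_of_le ?_ hr
      have : (0 : ℝ) < (x1 : ℝ) := by
        have : 1 ≤ x1 := le_max_right _ _
        exact_mod_cast this
      positivity
    have hne : {q : ℕ | q ≤ x1 ∧ q.Prime ∧ q ∈ cls T col p}.Nonempty := by
      refine Set.nonempty_of_ncard_ne_zero ?_
      intro h0
      rw [h0] at hpos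
      simp at hpos
    obtain ⟨p0, hp01, hp0, hp0T, hp0c⟩ := hne
    have hlt' : p0 < p := by omega
    obtain ⟨s, hs⟩ := hpm
    have hs1 : 1 ≤ s := by
      rcases Nat.eq_zero_or_pos s with h0 | h0
      · rw [h0] at hs; omega
      · exact h0
    have h1 : (s * l) * p ∈ A := by
      have : (s * l) * p = m * l := by rw [hs]; ring
      rw [this]; exact hmA
    have h2 : (s * l) * p0 ≤ N := by
      have h3 : (s * l) * p0 ≤ (s * l) * p := Nat.mul_le_mul_left _ hlt'.le
      have h4 : (s * l) * p = m * l := by rw [hs]; ring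
      omega
    have h5 := hE (s * l) p p0 hp hp0 hpT hp0T hp0c.symm h1 h2
    have h6 : (s * p0) * l ∈ A := by
      have : (s * p0) * l = (s * l) * p0 := by ring
      rw [this]; exact h5
    have h7 := hmin _ h6
    have h8 : s * p0 < s * p := Nat.mul_lt_mul_of_pos_left hlt' hs1
    rw [hs, mul_comm p s] at h7
    omega
  obtain ⟨D, w, hD1, hw1, hDle, hDw⟩ := complete (by omega : 1 ≤ k) B hm1 hleast
  obtain ⟨p, q, m', hp, hq, hpP, hqP, -, -, hm', hqp, hqN⟩ :=
    hN0 (cls T col l) (hR l hl hlT) l hl2 1 D (le_refl _) hD1 (by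
      have h1 : ((a * 1 * D : ℕ) : ℝ) ≤ ((a * D0 : ℕ) : ℝ) := by
        exact_mod_cast (by rw [mul_one]; exact Nat.mul_le_mul_left a hDle)
      have h2 : ((a * D0 : ℕ) : ℝ) = (((a * D0) ^ 2 : ℕ) : ℝ) ^ ((1 : ℝ) - 1 / 2) := by
        push_cast
        rw [← Real.rpow_natCast, ← Real.rpow_mul (by positivity)]
        norm_num
      have h3 : (((a * D0) ^ 2 : ℕ) : ℝ) ^ ((1 : ℝ) - 1 / 2) ≤
          (l : ℝ) ^ ((1 : ℝ) - 1 / 2) := by
        apply Real.rpow_le_rpow (by positivity) _ (by norm_num)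
        exact_mod_cast hl3
      linarith)
  rw [one_mul] at hqN
  have hbound : m * q ≤ N := le_trans (Nat.mul_le_mul_left _ hqN) hmN.2
  have hA1 : m * q ∈ A := hE m l q hl hq hlT hqP.1 hqP.2.symm hmA hbound
  have hA2 : m * p ∈ A := by
    refine hE m l p hl hp hlT hpP.1 hpP.2.symm hmA (le_trans (Nat.mul_le_mul_left _ ?_) hbound)
    rw [hqp]; exact Nat.le_add_right _ _
  refine hF (m * p) hA2 (m * q) hA1 (w * m') (Nat.mul_pos hw1 hm') ?_
  rw [hqp, mul_pow, ← hDw]
  ring

end Vale.Agent.P042.R2.H282.U
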